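import Crest.Agent.Lib.Sunflower.Weights

/-! The spread lemma (Alweiss–Lovett–Wu–Zhang; refinement-inequality proof). -/

set_option autoImplicit false

namespace Crest.Agent.Lib.Sunflower

open Finset

variable {X : Type} [Fintype X] [DecidableEq X]

/-- A probability weight on subsets which is `R`-spread. -/
structure Spread (R : ℝ) (ν : Finset X → ℝ) : Prop where
  nonneg : ∀ a, 0 ≤ ν a
  total : ∑ a, ν a = 1
  spread : ∀ T : Finset X, (∑ a, if T ⊆ a then ν a else 0) * R ^ T.card ≤ 1

lemma pointwise_log (Z : ℝ) (hZ : 0 < Z) (u n : ℕ) :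
    (2 * (u : ℝ) - n) * Real.log 2 ≤ Z * 4 ^ u / 2 ^ n + 1 / Z - 2 := by
  have h1 := Real.log_le_sub_one_of_pos (x := Z * 4 ^ u / 2 ^ n) (by positivity)
  have h2 := Real.log_le_sub_one_of_pos (x := 1 / Z) (by positivity)
  have h3 : Real.log (Z * 4 ^ u / 2 ^ n) + Real.log (1 / Z) = (2 * (u : ℝ) - n) * Real.log 2 := by
    rw [Real.log_div (by positivity) (by positivity), Real.log_mul (by positivity) (by positivity),
      Real.log_div (by positivity) (by positivity), Real.log_pow, Real.log_pow, Real.log_one]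
    have : Real.log 4 = 2 * Real.log 2 := by
      rw [show (4 : ℝ) = 2 ^ 2 by norm_num, Real.log_pow]; norm_num
    rw [this]; ring
  linarith

lemma Spread.moment {R : ℝ} {ν : Finset X → ℝ} (hν : Spread R ν) {p : ℝ} (hp : 0 < p)
    (hR : 4 ≤ p * R) (a : Finset X) :
    ∑ a', ν a' * (4 / p) ^ (a ∩ a').card ≤ 2 ^ a.card := by
  have hRpos : 0 < R := by
    by_contra h
    push Not at h
    nlinarith
  have h1 : ∀ a' : Finset X, (4 / p) ^ (a ∩ a').card ≤
      ∑ T ∈ a.powerset, if T ⊆ a' then (4 / p) ^ T.card else 0 := by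
    intro a'
    have : (4 / p) ^ (a ∩ a').card ≤ (4 / p + 1) ^ (a ∩ a').card :=
      pow_le_pow_left₀ (by positivity) (by linarith) _
    refine this.trans (le_of_eq ?_)
    rw [← Finset.sum_pow_mul_eq_add_pow, ← Finset.sum_filter]
    refine Finset.sum_congr ?_ fun T _ => by simp
    ext T; simp only [Finset.mem_powerset, Finset.mem_filter, Finset.subset_inter_iff]
  calc ∑ a', ν a' * (4 / p) ^ (a ∩ a').card
      ≤ ∑ a', ν a' * ∑ T ∈ a.powerset, if T ⊆ a' then (4 / p) ^ T.card else 0 :=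
        Finset.sum_le_sum fun a' _ => mul_le_mul_of_nonneg_left (h1 a') (hν.nonneg a')
    _ = ∑ T ∈ a.powerset, (∑ a', if T ⊆ a' then ν a' else 0) * (4 / p) ^ T.card := by
        simp_rw [Finset.mul_sum, Finset.sum_mul]
        rw [Finset.sum_comm]
        refine Finset.sum_congr rfl fun T _ => Finset.sum_congr rfl fun a' _ => ?_
        split_ifs <;> simp
    _ ≤ ∑ T ∈ a.powerset, (1 : ℝ) := by
        refine Finset.sum_le_sum fun T _ => le_trans ?_ (hν.spread T)
        refine mul_le_mul_of_nonneg_left (pow_le_pow_left₀ (by positivity) ?_ _)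
          (Finset.sum_nonneg fun a' _ => by split_ifs; exacts [hν.nonneg a', le_rfl])
        rw [div_le_iff₀ hp]; linarith
    _ = 2 ^ a.card := by simp

section Refine

variable (p : ℝ) (ν : Finset X → ℝ)

/-- planted-over-null likelihood ratio -/
noncomputable def lik (y : Finset X) : ℝ := ∑ a', if a' ⊆ y then ν a' / p ^ a'.card else 0

/-- posterior weight -/
noncomputable def post (y a' : Finset X) : ℝ :=
  (if a' ⊆ y then ν a' / p ^ a'.card else 0) / lik p ν y

/-- the refined weight given `w` -/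
noncomputable def refined (w B : Finset X) : ℝ :=
  ∑ a, ∑ a', ν a * post p ν (a ∪ w) a' * (if a' \ w = B then 1 else 0)

variable {p ν}

lemma lik_nonneg (hp : 0 < p) (h : ∀ a, 0 ≤ ν a) (y : Finset X) : 0 ≤ lik p ν y :=
  Finset.sum_nonneg fun a' _ => by
    split_ifs
    · exact div_nonneg (h a') (by positivity)
    · exact le_rfl

lemma lik_pos (hp : 0 < p) (h : ∀ a, 0 ≤ ν a) {a : Finset X} (ha : 0 < ν a) (w : Finset X) :
    0 < lik p ν (a ∪ w) := by
  refine Finset.sum_pos' (fun a' _ => ?_) ⟨a, Finset.mem_univ _, ?_⟩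
  · split_ifs
    · exact div_nonneg (h a') (by positivity)
    · exact le_rfl
  · rw [if_pos Finset.subset_union_left]; positivity

lemma post_nonneg (hp : 0 < p) (h : ∀ a, 0 ≤ ν a) (y a' : Finset X) : 0 ≤ post p ν y a' := by
  refine div_nonneg ?_ (lik_nonneg hp h y)
  split_ifs
  · exact div_nonneg (h a') (by positivity)
  · exact le_rfl

lemma mul_sum_post (hp : 0 < p) (h : ∀ a, 0 ≤ ν a) (a w : Finset X) :
    ν a * ∑ a', post p ν (a ∪ w) a' = ν a := by
  rcases (h a).eq_or_lt with h0 | h0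
  · rw [← h0]; simp
  · have := lik_pos hp h h0 w
    unfold post
    rw [← Finset.sum_div]
    change ν a * (lik p ν (a ∪ w) / lik p ν (a ∪ w)) = ν a
    rw [div_self this.ne', mul_one]

lemma post_ne_zero {y a' : Finset X} (h : post p ν y a' ≠ 0) : a' ⊆ y ∧ ν a' ≠ 0 := by
  unfold post at h
  by_cases h1 : a' ⊆ y
  · refine ⟨h1, fun h2 => h ?_⟩
    simp [h2]
  · simp [h1] at h

lemma sum_refined_mul (w : Finset X) (φ : Finset X → ℝ) :
    ∑ B, refined p ν w B * φ B = ∑ a, ∑ a', ν a * post p ν (a ∪ w) a' * φ (a' \ w) := by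
  unfold refined
  simp_rw [Finset.sum_mul]
  rw [Finset.sum_comm]
  refine Finset.sum_congr rfl fun a _ => ?_
  rw [Finset.sum_comm]
  refine Finset.sum_congr rfl fun a' _ => ?_
  simp

lemma refined_spread {R : ℝ} (hp : 0 < p) (hR : 0 ≤ R) (hν : Spread R ν) (w : Finset X) :
    Spread R (refined p ν w) := by
  refine ⟨fun B => ?_, ?_, fun T => ?_⟩
  · refine Finset.sum_nonneg fun a _ => Finset.sum_nonneg fun a' _ => ?_
    have := hν.nonneg a
    have := post_nonneg hp hν.nonneg (a ∪ w) a'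
    split_ifs <;> positivity
  · have := sum_refined_mul (p := p) (ν := ν) w (fun _ => 1)
    simp only [mul_one] at this
    rw [this, ← hν.total]
    refine Finset.sum_congr rfl fun a _ => ?_
    rw [← Finset.mul_sum, mul_sum_post hp hν.nonneg]
  · refine le_trans (mul_le_mul_of_nonneg_right ?_ (pow_nonneg hR _)) (hν.spread T)
    have := sum_refined_mul (p := p) (ν := ν) w (fun B => if T ⊆ B then 1 else 0)
    simp only [mul_ite, mul_one, mul_zero] at this
    rw [this]
    refine Finset.sum_le_sum fun a _ => ?_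
    by_cases hT : T ⊆ a
    · rw [if_pos hT]
      refine le_trans ?_ (le_of_eq (mul_sum_post hp hν.nonneg a w))
      rw [Finset.mul_sum]
      refine Finset.sum_le_sum fun a' _ => ?_
      have := hν.nonneg a
      have := post_nonneg hp hν.nonneg (a ∪ w) a'
      split_ifs
      · exact le_rfl
      · positivity
    · rw [if_neg hT]
      refine le_of_eq (Finset.sum_eq_zero fun a' _ => ?_)
      split_ifs with h
      · by_contra hne
        have h2 := (post_ne_zero (right_ne_zero_of_mul hne)).1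
        refine hT fun x hx => ?_
        have hx' := Finset.mem_sdiff.mp (h hx)
        rcases Finset.mem_union.mp (h2 hx'.1) with h3 | h3
        · exact h3
        · exact absurd h3 hx'.2
      · rfl

lemma refined_support {w B : Finset X} (h : refined p ν w B ≠ 0) :
    ∃ a', ν a' ≠ 0 ∧ a' ⊆ w ∪ B := by
  unfold refined at h
  obtain ⟨a, _, ha⟩ := Finset.exists_ne_zero_of_sum_ne_zero h
  obtain ⟨a', _, ha'⟩ := Finset.exists_ne_zero_of_sum_ne_zero ha
  have h1 := post_ne_zero (right_ne_zero_of_mul (left_ne_zero_of_mul ha'))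
  have h2 : a' \ w = B := by
    by_contra hc
    simp [hc] at ha'
  refine ⟨a', h1.2, fun x hx => ?_⟩
  by_cases hxw : x ∈ w
  · exact Finset.mem_union_left _ hxw
  · exact Finset.mem_union_right _ (h2 ▸ Finset.mem_sdiff.mpr ⟨hx, hxw⟩)

lemma termA {R : ℝ} (hp : 0 < p) (hR : 4 ≤ p * R) (hν : Spread R ν) :
    ∑ w, ∑ a, ∑ a', wt p w * (ν a * post p ν (a ∪ w) a' *
      (lik p ν (a ∪ w) * 4 ^ (a ∩ a').card / 2 ^ a.card)) ≤ 1 := by
  have h1 : ∀ w a a' : Finset X, wt p w * (ν a * post p ν (a ∪ w) a' *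
      (lik p ν (a ∪ w) * 4 ^ (a ∩ a').card / 2 ^ a.card)) =
      (ν a / 2 ^ a.card) * (ν a' / p ^ a'.card * 4 ^ (a ∩ a').card) *
        (wt p w * (if a' \ a ⊆ w then 1 else 0)) := by
    intro w a a'
    rcases (hν.nonneg a).eq_or_lt with h0 | h0
    · rw [← h0]; simp
    · have hl := (lik_pos hp hν.nonneg h0 w).ne'
      unfold post
      have : a' \ a ⊆ w ↔ a' ⊆ a ∪ w := by
        constructor
        · intro h x hx
          by_cases hxa : x ∈ a
          · exact Finset.mem_union_left _ hxa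
          · exact Finset.mem_union_right _ (h (Finset.mem_sdiff.mpr ⟨hx, hxa⟩))
        · intro h x hx
          have hx' := Finset.mem_sdiff.mp hx
          rcases Finset.mem_union.mp (h hx'.1) with h3 | h3
          · exact absurd h3 hx'.2
          · exact h3
      by_cases h : a' ⊆ a ∪ w
      · rw [if_pos h, if_pos (this.mpr h)]
        field_simp
      · rw [if_neg h, if_neg (fun h' => h (this.mp h'))]
        simp
  simp_rw [h1]
  rw [Finset.sum_comm]
  have h2 : ∀ a : Finset X, ∑ w, ∑ a', (ν a / 2 ^ a.card) *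
      (ν a' / p ^ a'.card * 4 ^ (a ∩ a').card) * (wt p w * (if a' \ a ⊆ w then 1 else 0)) =
      (ν a / 2 ^ a.card) * ∑ a', ν a' * (4 / p) ^ (a ∩ a').card := by
    intro a
    rw [Finset.sum_comm, Finset.mul_sum]
    refine Finset.sum_congr rfl fun a' _ => ?_
    rw [← Finset.mul_sum, sum_wt_subset]
    have : a'.card = (a' \ a).card + (a ∩ a').card := by
      rw [Finset.inter_comm, Finset.card_sdiff_add_card_inter]
    rw [this, pow_add, div_pow]
    field_simp
  simp_rw [h2]
  rw [← hν.total]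
  refine Finset.sum_le_sum fun a _ => ?_
  have := hν.moment hp hR a
  have h3 := hν.nonneg a
  calc ν a / 2 ^ a.card * ∑ a', ν a' * (4 / p) ^ (a ∩ a').card
      ≤ ν a / 2 ^ a.card * 2 ^ a.card := mul_le_mul_of_nonneg_left this (by positivity)
    _ = ν a := by field_simp

lemma termB {R : ℝ} (hp : 0 < p) (hp1 : p ≤ 1) (hν : Spread R ν) :
    ∑ w, ∑ a, ∑ a', wt p w * (ν a * post p ν (a ∪ w) a' * (1 / lik p ν (a ∪ w))) ≤ 1 := by
  have h1 : ∀ w a : Finset X, ∑ a', wt p w * (ν a * post p ν (a ∪ w) a' * (1 / lik p ν (a ∪ w))) =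
      ∑ y, ν a * (1 / lik p ν y) * (wt p w * if a ∪ w = y then 1 else 0) := by
    intro w a
    rw [← Finset.mul_sum, ← Finset.sum_mul, ← Finset.mul_sum, mul_sum_post hp hν.nonneg]
    simp only [mul_ite, mul_one, mul_zero, Finset.sum_ite_eq, Finset.mem_univ, if_true]
    ring
  simp_rw [h1]
  rw [Finset.sum_comm]
  have h2 : ∀ a : Finset X, ∑ w, ∑ y, ν a * (1 / lik p ν y) *
      (wt p w * if a ∪ w = y then 1 else 0) =
      ∑ y, (wt p y / lik p ν y) * (if a ⊆ y then ν a / p ^ a.card else 0) := by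
    intro a
    rw [Finset.sum_comm]
    refine Finset.sum_congr rfl fun y _ => ?_
    rw [← Finset.mul_sum]
    have h := sum_wt_union_eq p a y
    have hpa : p ^ a.card ≠ 0 := by positivity
    rw [← eq_div_iff hpa] at h
    rw [h]
    split_ifs
    · field_simp
    · simp
  simp_rw [h2]
  rw [Finset.sum_comm, ← sum_wt (X := X) p]
  refine Finset.sum_le_sum fun y _ => ?_
  rw [← Finset.mul_sum]
  change wt p y / lik p ν y * lik p ν y ≤ wt p y
  by_cases h : lik p ν y = 0
  · rw [h, mul_zero]; exact wt_nonneg hp.le hp1 y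
  · rw [div_mul_cancel₀ _ h]

lemma termC {R : ℝ} (hp : 0 < p) (hν : Spread R ν) (φ : Finset X → ℝ) :
    ∑ w, ∑ a, ∑ a', wt p w * (ν a * post p ν (a ∪ w) a' * φ a) = ∑ a, ν a * φ a := by
  have h1 : ∀ w a : Finset X, ∑ a', wt p w * (ν a * post p ν (a ∪ w) a' * φ a) =
      wt p w * (ν a * φ a) := by
    intro w a
    rw [← Finset.mul_sum, ← Finset.sum_mul, ← Finset.mul_sum, mul_sum_post hp hν.nonneg]
  simp_rw [h1, ← Finset.mul_sum]
  rw [← Finset.sum_mul, sum_wt, one_mul]

lemma refined_size {R : ℝ} (hp : 0 < p) (hp1 : p ≤ 1) (hR : 4 ≤ p * R) (hν : Spread R ν) :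
    ∑ w, wt p w * ∑ B, refined p ν w B * B.card ≤ (1 / 2) * ∑ a, ν a * a.card := by
  have hlog : 0 < Real.log 2 := Real.log_pos (by norm_num)
  have hA := termA hp hR hν
  have hB := termB hp hp1 hν
  have hC := termC hp hν (fun _ => 2)
  have hD := termC hp hν (fun a => (a.card : ℝ))
  rw [← Finset.sum_mul, hν.total] at hC
  have key : ∑ w, ∑ a, ∑ a', wt p w * (ν a * post p ν (a ∪ w) a' *
      ((2 * ((a' \ w).card : ℝ) - a.card) * Real.log 2)) ≤
      ∑ w, ∑ a, ∑ a', wt p w * (ν a * post p ν (a ∪ w) a' *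
        (lik p ν (a ∪ w) * 4 ^ (a ∩ a').card / 2 ^ a.card + 1 / lik p ν (a ∪ w) - 2)) := by
    refine Finset.sum_le_sum fun w _ => Finset.sum_le_sum fun a _ =>
      Finset.sum_le_sum fun a' _ => ?_
    refine mul_le_mul_of_nonneg_left ?_ (wt_nonneg hp.le hp1 w)
    rcases (hν.nonneg a).eq_or_lt with h0 | h0
    · rw [← h0]; simp
    by_cases hpost : post p ν (a ∪ w) a' = 0
    · rw [hpost]; simp
    refine mul_le_mul_of_nonneg_left ?_
      (mul_nonneg h0.le (post_nonneg hp hν.nonneg _ _))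
    refine le_trans ?_ (pointwise_log _ (lik_pos hp hν.nonneg h0 w) _ _)
    refine mul_le_mul_of_nonneg_right ?_ hlog.le
    have hsub : a' \ w ⊆ a ∩ a' := by
      intro x hx
      have hx' := Finset.mem_sdiff.mp hx
      refine Finset.mem_inter.mpr ⟨?_, hx'.1⟩
      rcases Finset.mem_union.mp ((post_ne_zero hpost).1 hx'.1) with h3 | h3
      · exact h3
      · exact absurd h3 hx'.2
    have : ((a' \ w).card : ℝ) ≤ (a ∩ a').card := by exact_mod_cast Finset.card_le_card hsub
    linarith
  have e1 : ∑ w, ∑ a, ∑ a', wt p w * (ν a * post p ν (a ∪ w) a' *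
        (lik p ν (a ∪ w) * 4 ^ (a ∩ a').card / 2 ^ a.card + 1 / lik p ν (a ∪ w) - 2)) =
      (∑ w, ∑ a, ∑ a', wt p w * (ν a * post p ν (a ∪ w) a' *
        (lik p ν (a ∪ w) * 4 ^ (a ∩ a').card / 2 ^ a.card))) +
      (∑ w, ∑ a, ∑ a', wt p w * (ν a * post p ν (a ∪ w) a' * (1 / lik p ν (a ∪ w)))) -
      ∑ w, ∑ a, ∑ a', wt p w * (ν a * post p ν (a ∪ w) a' * 2) := by
    simp_rw [← Finset.sum_add_distrib, ← Finset.sum_sub_distrib]
    refine Finset.sum_congr rfl fun w _ => Finset.sum_congr rfl fun a _ =>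
      Finset.sum_congr rfl fun a' _ => by ring
  have e2 : ∑ w, ∑ a, ∑ a', wt p w * (ν a * post p ν (a ∪ w) a' *
      ((2 * ((a' \ w).card : ℝ) - a.card) * Real.log 2)) =
      (2 * (∑ w, wt p w * ∑ B, refined p ν w B * B.card) -
        ∑ w, ∑ a, ∑ a', wt p w * (ν a * post p ν (a ∪ w) a' * a.card)) * Real.log 2 := by
    simp_rw [sum_refined_mul _ (fun B => (B.card : ℝ)), Finset.mul_sum, ← Finset.sum_sub_distrib,
      Finset.sum_mul]
    refine Finset.sum_congr rfl fun w _ => Finset.sum_congr rfl fun a _ =>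
      Finset.sum_congr rfl fun a' _ => by ring
  rw [e1, e2, hC, hD] at key
  have : (2 * (∑ w, wt p w * ∑ B, refined p ν w B * B.card) - ∑ a, ν a * a.card) *
      Real.log 2 ≤ 0 := by linarith
  have h3 := nonpos_of_mul_nonpos_left this hlog
  linarith

end Refine

/-- The spread lemma: an up-set containing the support of an `R`-spread weight is hit by a
Bernoulli(`L * p₀`) set except with probability at most `2^{-L}` times the mean size. -/
theorem spread_lemma {R p₀ : ℝ} (hp₀ : 0 < p₀) (hR : 4 ≤ p₀ * R) (L : ℕ) :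
    L * p₀ ≤ 1 → ∀ (ν : Finset X → ℝ) (G : Finset X → Prop) [DecidablePred G],
      Spread R ν → (∀ a b, G a → a ⊆ b → G b) → (∀ a, ν a ≠ 0 → G a) →
      ∑ y, wt (L * p₀) y * (if G y then 0 else 1) ≤ (1 / 2) ^ L * ∑ a, ν a * a.card := by
  have hRpos : 0 < R := by
    by_contra h
    push Not at h
    nlinarith
  induction L with
  | zero =>
    intro _ ν G _ hν _ hsupp
    simp only [Nat.cast_zero, zero_mul, wt_zero, pow_zero, one_mul, ite_mul,
      Finset.sum_ite_eq', Finset.mem_univ, if_true]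
    split_ifs with h
    · exact Finset.sum_nonneg fun a _ => mul_nonneg (hν.nonneg a) (by positivity)
    · rw [← hν.total]
      refine Finset.sum_le_sum fun a _ => ?_
      by_cases ha : ν a = 0
      · simp [ha]
      · have : a ≠ ∅ := fun h' => h (h' ▸ hsupp a ha)
        have h1 : (1 : ℝ) ≤ a.card := by
          exact_mod_cast Finset.card_pos.mpr (Finset.nonempty_iff_ne_empty.mpr this)
        nlinarith [hν.nonneg a]
  | succ L ih =>
    intro hL ν G _ hν hup hsupp
    push_cast at hL ⊢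
    have hq : L * p₀ < 1 := by nlinarith
    have hq0 : 0 ≤ L * p₀ := by positivity
    set p := p₀ / (1 - L * p₀) with hpdef
    have h1q : 0 < 1 - L * p₀ := by linarith
    have hp : 0 < p := div_pos hp₀ h1q
    have hp1 : p ≤ 1 := by rw [hpdef, div_le_one h1q]; linarith
    have hpp : p₀ ≤ p := by rw [hpdef, le_div_iff₀ h1q]; nlinarith
    have hR' : 4 ≤ p * R := hR.trans (mul_le_mul_of_nonneg_right hpp hRpos.le)
    have e : (L + 1) * p₀ = p + L * p₀ - p * (L * p₀) := by
      rw [hpdef]; field_simp; ring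
    rw [e, ← sum_wt_wt_fun p (L * p₀) (fun y => if G y then 0 else 1)]
    have hsz := refined_size hp hp1 hR' hν
    calc ∑ w, wt p w * ∑ v, wt (L * p₀) v * (if G (w ∪ v) then 0 else 1)
        ≤ ∑ w, wt p w * ((1 / 2) ^ L * ∑ B, refined p ν w B * B.card) := by
          refine Finset.sum_le_sum fun w _ => mul_le_mul_of_nonneg_left ?_ (wt_nonneg hp.le hp1 w)
          refine ih hq.le (refined p ν w) (fun v => G (w ∪ v)) (refined_spread hp hRpos.le hν w)
            (fun a b ha hab => hup _ _ ha (Finset.union_subset_union_right hab)) ?_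
          intro B hB
          obtain ⟨a', h1, h2⟩ := refined_support hB
          exact hup _ _ (hsupp a' h1) h2
      _ = (1 / 2) ^ L * ∑ w, wt p w * ∑ B, refined p ν w B * B.card := by
          rw [Finset.mul_sum]
          exact Finset.sum_congr rfl fun w _ => by ring
      _ ≤ (1 / 2) ^ L * ((1 / 2) * ∑ a, ν a * a.card) :=
          mul_le_mul_of_nonneg_left hsz (by positivity)
      _ = (1 / 2) ^ (L + 1) * ∑ a, ν a * a.card := by ring

end Crest.Agent.Lib.Sunflower
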