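import Crest.Agent.Lib.Sunflower.Spread

/-! The sunflower lemma with the logarithmic bound, and equal-sum pieces. -/

set_option autoImplicit false

namespace Crest.Agent.Lib.Sunflower

open Finset

variable {X : Type} [Fintype X] [DecidableEq X]

/-- From a large uniform family one extracts a kernel whose link is spread. -/
lemma exists_spread_link (𝓕 : Finset (Finset X)) (t : ℕ) (R : ℝ) (hR : 0 < R)
    (ht : ∀ E ∈ 𝓕, E.card = t) (hbig : R ^ t < 𝓕.card) :
    ∃ (T : Finset X) (ν : Finset X → ℝ), T.card < t ∧ Spread R ν ∧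
      (∀ B, ν B ≠ 0 → ∃ E ∈ 𝓕, T ⊆ E ∧ E \ T = B) := by
  obtain ⟨T, -, hT⟩ := Finset.exists_max_image (Finset.univ : Finset (Finset X))
    (fun T => ((𝓕.filter fun E => T ⊆ E).card : ℝ) * R ^ T.card) ⟨∅, Finset.mem_univ _⟩
  have h0 := hT ∅ (Finset.mem_univ _)
  simp only [Finset.empty_subset, Finset.filter_true, Finset.card_empty, pow_zero, mul_one] at h0
  set n := (𝓕.filter fun E => T ⊆ E).card with hn
  have hg : R ^ t < n * R ^ T.card := hbig.trans_le h0
  have hnpos : 0 < n := by
    rcases Nat.eq_zero_or_pos n with h | h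
    · rw [h] at hg
      have : 0 < R ^ t := by positivity
      simp at hg; linarith
    · exact h
  have hnR : (0 : ℝ) < n := by exact_mod_cast hnpos
  have hTt : T.card < t := by
    by_contra hc
    push Not at hc
    have hall : ∀ E ∈ 𝓕.filter (fun E => T ⊆ E), E = T := by
      intro E hE
      rw [Finset.mem_filter] at hE
      exact (Finset.eq_of_subset_of_card_le hE.2 (by rw [ht E hE.1]; exact hc)).symm
    have hle : n ≤ 1 := Finset.card_le_one.mpr fun a ha b hb => (hall a ha).trans (hall b hb).symm
    obtain ⟨E, hE⟩ := Finset.card_pos.mp hnpos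
    have hET := hall E hE
    rw [Finset.mem_filter] at hE
    have : T.card = t := hET ▸ ht E hE.1
    rw [this] at hg
    have h1 : (n : ℝ) ≤ 1 := by exact_mod_cast hle
    have : 0 < R ^ t := by positivity
    nlinarith
  refine ⟨T, fun B => ∑ E ∈ 𝓕.filter (fun E => T ⊆ E), (if E \ T = B then 1 / (n : ℝ) else 0),
    hTt, ⟨fun B => ?_, ?_, fun U => ?_⟩, fun B hB => ?_⟩
  · exact Finset.sum_nonneg fun E _ => by split_ifs <;> positivity
  · rw [Finset.sum_comm]
    simp only [Finset.sum_ite_eq, Finset.mem_univ, if_true, Finset.sum_const, nsmul_eq_mul]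
    rw [← hn]; field_simp
  · have e : (∑ a, if U ⊆ a then
        ∑ E ∈ 𝓕.filter (fun E => T ⊆ E), (if E \ T = a then 1 / (n : ℝ) else 0) else 0) =
        (((𝓕.filter (fun E => T ⊆ E)).filter fun E => U ⊆ E \ T).card : ℝ) / n := by
      have : ∀ a : Finset X, (if U ⊆ a then
        ∑ E ∈ 𝓕.filter (fun E => T ⊆ E), (if E \ T = a then 1 / (n : ℝ) else 0) else 0) =
        ∑ E ∈ 𝓕.filter (fun E => T ⊆ E),
          (if E \ T = a then (if U ⊆ a then 1 / (n : ℝ) else 0) else 0) := by
        intro a
        split_ifs <;> simp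
      simp_rw [this]
      rw [Finset.sum_comm]
      simp only [Finset.sum_ite_eq, Finset.mem_univ, if_true]
      rw [← Finset.sum_filter]
      simp [div_eq_mul_inv]
    rw [e]
    rcases ((𝓕.filter (fun E => T ⊆ E)).filter fun E => U ⊆ E \ T).eq_empty_or_nonempty with
      hemp | ⟨E₀, hE₀⟩
    · rw [hemp]; simp
    · have hdisj : Disjoint T U := by
        rw [Finset.mem_filter] at hE₀
        exact Finset.disjoint_left.mpr fun x hxT hxU => (Finset.mem_sdiff.mp (hE₀.2 hxU)).2 hxT
      have h1 := hT (T ∪ U) (Finset.mem_univ _)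
      rw [Finset.card_union_of_disjoint hdisj, pow_add] at h1
      have h2 : ((𝓕.filter (fun E => T ⊆ E)).filter fun E => U ⊆ E \ T).card ≤
          (𝓕.filter fun E => T ∪ U ⊆ E).card := by
        refine Finset.card_le_card fun E hE => ?_
        simp only [Finset.mem_filter] at hE ⊢
        exact ⟨hE.1.1, Finset.union_subset hE.1.2 (hE.2.trans Finset.sdiff_subset)⟩
      have h2' : (((𝓕.filter (fun E => T ⊆ E)).filter fun E => U ⊆ E \ T).card : ℝ) ≤
          (𝓕.filter fun E => T ∪ U ⊆ E).card := by exact_mod_cast h2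
      have hRT : 0 < R ^ T.card := by positivity
      have hRU : 0 < R ^ U.card := by positivity
      rw [div_mul_eq_mul_div, div_le_one hnR]
      have h3 : ((𝓕.filter fun E => T ∪ U ⊆ E).card : ℝ) * R ^ U.card ≤ n := by
        refine le_of_mul_le_mul_right ?_ hRT
        linarith
      nlinarith
  · obtain ⟨E, hE, h⟩ := Finset.exists_ne_zero_of_sum_ne_zero hB
    rw [Finset.mem_filter] at hE
    refine ⟨E, hE.1, hE.2, ?_⟩
    by_contra hc
    simp [hc] at h

/-- Sunflower lemma: a family of more than `(4 Q L)^t` sets of size `t`, where `Q t < 2^L`,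
contains a sunflower with `Q` nonempty petals. -/
theorem sunflower {A : Type} [Fintype A] [DecidableEq A] [Nonempty A]
    (𝓕 : Finset (Finset X)) (t L : ℕ) (ht : ∀ E ∈ 𝓕, E.card = t) (hL0 : 0 < L)
    (hL : Fintype.card A * t < 2 ^ L) (hbig : (4 * Fintype.card A * L) ^ t < 𝓕.card) :
    ∃ (T : Finset X) (B : A → Finset X), T.card < t ∧ (∀ a, Disjoint T (B a)) ∧
      (∀ a, T ∪ B a ∈ 𝓕) ∧ (∀ a b, a ≠ b → Disjoint (B a) (B b)) := by
  classical
  have hQ : (0 : ℝ) < Fintype.card A := by exact_mod_cast Fintype.card_pos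
  have hLR : (0 : ℝ) < L := by exact_mod_cast hL0
  obtain ⟨T, ν, hTt, hν, hsupp⟩ := exists_spread_link 𝓕 t (4 * Fintype.card A * L)
    (by positivity) ht (by exact_mod_cast hbig)
  let G : Finset X → Prop := fun y => ∃ E ∈ 𝓕, T ⊆ E ∧ E \ T ⊆ y
  have hq : (L : ℝ) * (1 / (Fintype.card A * L)) = 1 / Fintype.card A := by field_simp
  have hs := spread_lemma (X := X) (R := 4 * Fintype.card A * L) (p₀ := 1 / (Fintype.card A * L))
    (by positivity) (le_of_eq (by field_simp)) L
    (by rw [hq, div_le_one hQ]; exact_mod_cast Fintype.card_pos) ν G hν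
    (fun a b ⟨E, h1, h2, h3⟩ hab => ⟨E, h1, h2, h3.trans hab⟩)
    (fun a ha => by
      obtain ⟨E, h1, h2, h3⟩ := hsupp a ha
      exact ⟨E, h1, h2, h3.le⟩)
  rw [hq] at hs
  have hmean : ∑ a, ν a * a.card ≤ t := by
    calc ∑ a, ν a * (a.card : ℝ) ≤ ∑ a, ν a * t := by
          refine Finset.sum_le_sum fun a _ => ?_
          by_cases ha : ν a = 0
          · simp [ha]
          · obtain ⟨E, h1, h2, h3⟩ := hsupp a ha
            refine mul_le_mul_of_nonneg_left ?_ (hν.nonneg a)
            have : a.card ≤ t := by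
              rw [← h3, ← ht E h1]; exact Finset.card_le_card Finset.sdiff_subset
            exact_mod_cast this
      _ = t := by rw [← Finset.sum_mul, hν.total, one_mul]
  have hcol : ∑ c : X → A, ∑ α : A,
      (if G (Finset.univ.filter fun x => c x = α) then (0 : ℝ) else 1) < ∑ _c : X → A, (1 : ℝ) := by
    rw [Finset.sum_comm]
    have : ∀ α : A, ∑ c : X → A, (if G (Finset.univ.filter fun x => c x = α) then (0 : ℝ) else 1)
        ≤ (Fintype.card A : ℝ) ^ Fintype.card X * ((1 / 2) ^ L * t) := by
      intro α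
      rw [sum_coloring α (fun y => if G y then (0 : ℝ) else 1)]
      refine mul_le_mul_of_nonneg_left (hs.trans ?_) (by positivity)
      exact mul_le_mul_of_nonneg_left hmean (by positivity)
    refine (Finset.sum_le_sum fun α _ => this α).trans_lt ?_
    simp only [Finset.sum_const, Finset.card_univ, nsmul_eq_mul, mul_one, Fintype.card_fun,
      Nat.cast_pow]
    have h1 : (Fintype.card A : ℝ) * t < 2 ^ L := by exact_mod_cast hL
    have h2 : (Fintype.card A : ℝ) * ((1 / 2) ^ L * t) < 1 := by
      rw [one_div, inv_pow, ← mul_assoc, mul_comm _ ((2 : ℝ) ^ L)⁻¹, mul_assoc,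
        inv_mul_lt_iff₀ (by positivity)]
      linarith
    have h3 : (0 : ℝ) < (Fintype.card A : ℝ) ^ Fintype.card X := by positivity
    nlinarith
  obtain ⟨c, -, hc⟩ := Finset.exists_lt_of_sum_lt hcol
  have hall : ∀ α : A, G (Finset.univ.filter fun x => c x = α) := by
    intro α
    by_contra hG
    have : (1 : ℝ) ≤ ∑ α : A,
        (if G (Finset.univ.filter fun x => c x = α) then (0 : ℝ) else 1) := by
      refine le_trans ?_ (Finset.single_le_sum (f := fun α : A =>
        if G (Finset.univ.filter fun x => c x = α) then (0 : ℝ) else 1)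
        (fun β _ => by split_ifs <;> norm_num) (Finset.mem_univ α))
      simp [hG]
    linarith
  choose E hE1 hE2 hE3 using hall
  refine ⟨T, fun a => E a \ T, hTt, fun a => Finset.disjoint_sdiff, fun a => ?_,
    fun a b hab => ?_⟩
  · rw [Finset.union_sdiff_of_subset (hE2 a)]; exact hE1 a
  · refine Finset.disjoint_left.mpr fun x hxa hxb => hab ?_
    have h1 := (Finset.mem_filter.mp (hE3 a hxa)).2
    have h2 := (Finset.mem_filter.mp (hE3 b hxb)).2
    exact h1.symm.trans h2

/-- In a large set one finds disjoint nonempty subsets, indexed by `A`, with equal vector sums. -/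
lemma exists_equal_sums {A J : Type} [Fintype A] [DecidableEq A] [Nonempty A] [Fintype J]
    [DecidableEq J] (v : X → J → ℤ) (hv : ∀ x j, |v x j| ≤ 1) (t L : ℕ) (hL0 : 0 < L)
    (hL : Fintype.card A * t < 2 ^ L) (ht : (2 * t + 1) ^ Fintype.card J < 2 ^ t)
    (K : Finset X) (hK : t * (1 + 8 * Fintype.card A * L) ≤ K.card) :
    ∃ B : A → Finset X, (∀ a, (B a).Nonempty) ∧ (∀ a, B a ⊆ K) ∧
      (∀ a b, a ≠ b → Disjoint (B a) (B b)) ∧
      ∀ a b j, ∑ x ∈ B a, v x j = ∑ x ∈ B b, v x j := by
  classical
  set ρ := 4 * Fintype.card A * L with hρ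
  have hmaps : ∀ E ∈ K.powersetCard t, (fun j => ∑ x ∈ E, v x j) ∈
      Fintype.piFinset (fun _ : J => Finset.Icc (-(t : ℤ)) t) := by
    intro E hE
    rw [Fintype.mem_piFinset]
    intro j
    rw [Finset.mem_Icc, ← abs_le]
    refine (Finset.abs_sum_le_sum_abs _ _).trans ?_
    refine (Finset.sum_le_sum fun x _ => hv x j).trans ?_
    simp [(Finset.mem_powersetCard.mp hE).2]
  have hcard : (Fintype.piFinset (fun _ : J => Finset.Icc (-(t : ℤ)) t)).card * ρ ^ t <
      (K.powersetCard t).card := by
    rw [Finset.card_powersetCard, Fintype.card_piFinset]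
    have e : (Finset.Icc (-(t : ℤ)) t).card = 2 * t + 1 := by
      rw [Int.card_Icc]; omega
    simp only [e, Finset.prod_const, Finset.card_univ]
    have hρpos : 0 < ρ := by
      have := Fintype.card_pos (α := A)
      positivity
    have h1 : (2 * t + 1) ^ Fintype.card J * ρ ^ t < 2 ^ t * ρ ^ t :=
      Nat.mul_lt_mul_of_pos_right ht (by positivity)
    refine h1.trans_le ?_
    have h2 := Nat.pow_le_choose (α := ℝ) t K.card
    have h3 : (t.factorial : ℝ) ≤ (t : ℝ) ^ t := by exact_mod_cast Nat.factorial_le_pow t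
    have h4 : t * (2 * ρ) ≤ K.card + 1 - t := by
      have : t * (1 + 8 * Fintype.card A * L) = t + t * (2 * ρ) := by rw [hρ]; ring
      omega
    have h5 : ((t : ℝ) * (2 * ρ)) ^ t ≤ ((K.card + 1 - t : ℕ) : ℝ) ^ t :=
      pow_le_pow_left₀ (by positivity) (by exact_mod_cast h4) _
    have hf : (0 : ℝ) < t.factorial := by exact_mod_cast t.factorial_pos
    have h6 : (2 * ρ : ℝ) ^ t ≤ K.card.choose t := by
      refine le_trans ?_ h2
      rw [le_div_iff₀ hf]
      refine le_trans ?_ h5
      rw [mul_pow (t : ℝ), mul_comm]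
      exact mul_le_mul_of_nonneg_right h3 (by positivity)
    rw [← mul_pow]
    exact_mod_cast h6
  obtain ⟨y, -, hy⟩ := Finset.exists_lt_card_fiber_of_mul_lt_card_of_maps_to hmaps hcard
  obtain ⟨T, B, hT, hd, hmem, hdisj⟩ := sunflower (A := A) _ t L
    (fun E hE => (Finset.mem_powersetCard.mp (Finset.mem_filter.mp hE).1).2) hL0 hL hy
  refine ⟨B, fun a => ?_, fun a => ?_, hdisj, fun a b j => ?_⟩
  · have h1 := (Finset.mem_powersetCard.mp (Finset.mem_filter.mp (hmem a)).1).2
    rw [Finset.card_union_of_disjoint (hd a)] at h1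
    exact Finset.card_pos.mp (by omega)
  · exact Finset.subset_union_right.trans
      (Finset.mem_powersetCard.mp (Finset.mem_filter.mp (hmem a)).1).1
  · have h1 := congrFun (Finset.mem_filter.mp (hmem a)).2 j
    have h2 := congrFun (Finset.mem_filter.mp (hmem b)).2 j
    simp only [Finset.sum_union (hd _)] at h1 h2
    linarith

/-- All but a small leftover of any set can be cut into `A`-indexed pieces with equal sums. -/
theorem exists_pieces {A J : Type} [Fintype A] [DecidableEq A] [Nonempty A] [Fintype J]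
    [DecidableEq J] (v : X → J → ℤ) (hv : ∀ x j, |v x j| ≤ 1) (t L : ℕ) (hL0 : 0 < L)
    (hL : Fintype.card A * t < 2 ^ L) (ht : (2 * t + 1) ^ Fintype.card J < 2 ^ t)
    (K : Finset X) :
    ∃ lab : X → Option A,
      (K.filter fun x => lab x = none).card ≤ t * (1 + 8 * Fintype.card A * L) ∧
      ∀ a b j, ∑ x ∈ K.filter (fun x => lab x = some a), v x j =
        ∑ x ∈ K.filter (fun x => lab x = some b), v x j := by
  classical
  induction K using Finset.strongInduction with
  | H K ih =>
    by_cases hK : t * (1 + 8 * Fintype.card A * L) ≤ K.card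
    · obtain ⟨B, hne, hsub, hdisj, hsum⟩ := exists_equal_sums (A := A) v hv t L hL0 hL ht K hK
      let K' := K.filter fun x => ¬ ∃ a, x ∈ B a
      have hK' : K' ⊂ K := by
        refine Finset.ssubset_iff_subset_ne.mpr ⟨Finset.filter_subset _ _, fun h => ?_⟩
        obtain ⟨x, hx⟩ := hne (Classical.arbitrary A)
        have : x ∈ K' := h ▸ hsub _ hx
        exact (Finset.mem_filter.mp this).2 ⟨_, hx⟩
      obtain ⟨lab, h1, h2⟩ := ih K' hK'
      refine ⟨fun x => if h : ∃ a, x ∈ B a then some h.choose else lab x, ?_, fun a b j => ?_⟩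
      · refine le_trans (Finset.card_le_card fun x hx => ?_) h1
        simp only [Finset.mem_filter, K'] at hx ⊢
        by_cases h : ∃ a, x ∈ B a
        · simp [h] at hx
        · simp only [h, dite_false] at hx
          exact ⟨⟨hx.1, h⟩, hx.2⟩
      · have key : ∀ a, K.filter (fun x =>
            (if h : ∃ a, x ∈ B a then some h.choose else lab x) = some a) =
            B a ∪ K'.filter (fun x => lab x = some a) := by
          intro a
          ext x
          simp only [Finset.mem_filter, Finset.mem_union, K']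
          by_cases h : ∃ a, x ∈ B a
          · simp only [h, dite_true, Option.some.injEq, not_true, and_false, false_and, or_false]
            constructor
            · rintro ⟨-, h3⟩
              exact h3 ▸ h.choose_spec
            · intro h3
              refine ⟨hsub a h3, ?_⟩
              by_contra hc
              exact Finset.disjoint_left.mp (hdisj _ _ hc) h.choose_spec h3
          · simp only [h, dite_false, not_false_iff, and_true]
            constructor
            · intro h3; exact Or.inr h3
            · rintro (h3 | h3)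
              · exact absurd ⟨a, h3⟩ h
              · exact h3
        have hd : ∀ a, Disjoint (B a) (K'.filter (fun x => lab x = some a)) := fun a =>
          Finset.disjoint_left.mpr fun x hx hx' =>
            (Finset.mem_filter.mp (Finset.mem_filter.mp hx').1).2 ⟨a, hx⟩
        rw [key, key, Finset.sum_union (hd a), Finset.sum_union (hd b), hsum a b, h2 a b]
    · refine ⟨fun _ => none, ?_, fun a b j => by simp⟩
      simp only [Finset.filter_true]
      omega

end Crest.Agent.Lib.Sunflower
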