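import Mathlib

/-! Product (Bernoulli) weights on subsets of a finite type. -/

set_option autoImplicit false

namespace Crest.Agent.Lib.Sunflower

open Finset

variable {X : Type} [Fintype X] [DecidableEq X]

/-- Bernoulli(`p`) weight of the subset `w`. -/
noncomputable def wt (p : ℝ) (w : Finset X) : ℝ := ∏ x : X, if x ∈ w then p else 1 - p

lemma sum_prod_ite (f g : X → ℝ) :
    ∑ w : Finset X, ∏ x : X, (if x ∈ w then f x else g x) = ∏ x : X, (f x + g x) := by
  rw [Fintype.prod_add]
  refine Finset.sum_congr rfl fun w _ => ?_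
  rw [Finset.prod_ite]
  congr 1
  · refine Finset.prod_congr ?_ fun _ _ => rfl
    ext x; simp
  · refine Finset.prod_congr ?_ fun _ _ => rfl
    ext x; simp

lemma wt_nonneg {p : ℝ} (h0 : 0 ≤ p) (h1 : p ≤ 1) (w : Finset X) : 0 ≤ wt p w :=
  Finset.prod_nonneg fun x _ => by split_ifs <;> linarith

lemma sum_wt (p : ℝ) : ∑ w : Finset X, wt p w = 1 := by
  unfold wt
  rw [sum_prod_ite (fun _ => p) (fun _ => 1 - p)]
  simp

lemma sum_wt_subset (p : ℝ) (a : Finset X) :
    ∑ w : Finset X, wt p w * (if a ⊆ w then 1 else 0) = p ^ a.card := by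
  have h : ∀ w : Finset X, wt p w * (if a ⊆ w then 1 else 0) =
      ∏ x : X, (if x ∈ w then p else (if x ∈ a then 0 else 1 - p)) := by
    intro w
    by_cases hw : a ⊆ w
    · simp only [hw, if_true, mul_one, wt]
      refine Finset.prod_congr rfl fun x _ => ?_
      by_cases hx : x ∈ w
      · simp [hx]
      · have : x ∉ a := fun h => hx (hw h)
        simp [hx, this]
    · simp only [hw, if_false, mul_zero]
      obtain ⟨x, hxa, hxw⟩ := Finset.not_subset.mp hw
      exact (Finset.prod_eq_zero (Finset.mem_univ x) (by simp [hxa, hxw])).symm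
  simp_rw [h]
  rw [sum_prod_ite (fun _ => p) (fun x => if x ∈ a then 0 else 1 - p)]
  have : ∀ x : X, (p + if x ∈ a then 0 else 1 - p) = if x ∈ a then p else 1 := by
    intro x; split_ifs <;> ring
  simp_rw [this]
  rw [Finset.prod_ite]
  simp

lemma sum_wt_union_eq (p : ℝ) (a y : Finset X) :
    (∑ w : Finset X, wt p w * (if a ∪ w = y then 1 else 0)) * p ^ a.card =
      if a ⊆ y then wt p y else 0 := by
  by_cases hay : a ⊆ y
  · have h : ∀ w : Finset X, wt p w * (if a ∪ w = y then 1 else 0) =
        ∏ x : X, (if x ∈ w then (if x ∈ y then p else 0)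
          else (if x ∈ y ∧ x ∉ a then 0 else 1 - p)) := by
      intro w
      by_cases hw : a ∪ w = y
      · simp only [hw, if_true, mul_one, wt]
        refine Finset.prod_congr rfl fun x _ => ?_
        subst hw
        by_cases hx : x ∈ w
        · simp [hx]
        · by_cases hxa : x ∈ a <;> simp [hx, hxa]
      · simp only [hw, if_false, mul_zero]
        have : ∃ x, ¬ (x ∈ a ∪ w ↔ x ∈ y) := by
          by_contra hc
          push Not at hc
          exact hw (Finset.ext hc)
        obtain ⟨x, hx⟩ := this
        refine (Finset.prod_eq_zero (Finset.mem_univ x) ?_).symm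
        by_cases hxw : x ∈ w
        · have : x ∉ y := fun h => hx ⟨fun _ => h, fun _ => Finset.mem_union_right _ hxw⟩
          simp [hxw, this]
        · by_cases hxa : x ∈ a
          · exact absurd ⟨fun _ => hay hxa, fun _ => Finset.mem_union_left _ hxa⟩ hx
          · have : x ∈ y := by
              by_contra hy
              exact hx ⟨fun h => by simp [hxw, hxa] at h, fun h => absurd h hy⟩
            simp [hxw, hxa, this]
    simp_rw [h]
    rw [sum_prod_ite (fun x => if x ∈ y then p else 0)
      (fun x => if x ∈ y ∧ x ∉ a then 0 else 1 - p)]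
    have hp : p ^ a.card = ∏ x : X, if x ∈ a then p else 1 := by
      rw [Finset.prod_ite]; simp
    rw [hp, ← Finset.prod_mul_distrib, if_pos hay, wt]
    refine Finset.prod_congr rfl fun x _ => ?_
    by_cases hxa : x ∈ a
    · have := hay hxa
      simp [hxa, this]
    · by_cases hxy : x ∈ y <;> simp [hxa, hxy]
  · rw [if_neg hay]
    have : ∀ w : Finset X, ¬ (a ∪ w = y) := fun w h => hay (h ▸ Finset.subset_union_left)
    simp [this]

lemma sum_wt_wt_union (p q : ℝ) (y : Finset X) :
    ∑ w : Finset X, ∑ v : Finset X, wt p w * wt q v * (if w ∪ v = y then 1 else 0) =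
      wt (p + q - p * q) y := by
  have h : ∀ w v : Finset X, wt p w * wt q v * (if w ∪ v = y then 1 else 0) =
      ∏ x : X, (if x ∈ v then (if x ∈ w then (if x ∈ y then p * q else 0)
          else (if x ∈ y then (1 - p) * q else 0))
        else (if x ∈ w then (if x ∈ y then p * (1 - q) else 0)
          else (if x ∈ y then 0 else (1 - p) * (1 - q)))) := by
    intro w v
    by_cases hw : w ∪ v = y
    · simp only [hw, if_true, mul_one, wt]
      rw [← Finset.prod_mul_distrib]
      refine Finset.prod_congr rfl fun x _ => ?_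
      subst hw
      by_cases hx : x ∈ w <;> by_cases hv : x ∈ v <;> simp [hx, hv]
    · simp only [hw, if_false, mul_zero]
      have : ∃ x, ¬ (x ∈ w ∪ v ↔ x ∈ y) := by
        by_contra hc
        push Not at hc
        exact hw (Finset.ext hc)
      obtain ⟨x, hx⟩ := this
      refine (Finset.prod_eq_zero (Finset.mem_univ x) ?_).symm
      by_cases hxw : x ∈ w <;> by_cases hxv : x ∈ v <;> by_cases hxy : x ∈ y <;>
        simp_all
  simp_rw [h]
  have h2 : ∀ w : Finset X, (∑ v : Finset X, ∏ x : X,
      (if x ∈ v then (if x ∈ w then (if x ∈ y then p * q else 0)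
          else (if x ∈ y then (1 - p) * q else 0))
        else (if x ∈ w then (if x ∈ y then p * (1 - q) else 0)
          else (if x ∈ y then 0 else (1 - p) * (1 - q))))) =
      ∏ x : X, (if x ∈ w then (if x ∈ y then p else 0)
          else (if x ∈ y then (1 - p) * q else (1 - p) * (1 - q))) := by
    intro w
    rw [sum_prod_ite]
    refine Finset.prod_congr rfl fun x _ => ?_
    by_cases hxw : x ∈ w <;> by_cases hxy : x ∈ y <;> simp [hxw, hxy]
    ring
  simp_rw [h2]
  rw [sum_prod_ite, wt]
  refine Finset.prod_congr rfl fun x _ => ?_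
  by_cases hxy : x ∈ y <;> simp [hxy] <;> ring

lemma sum_wt_wt_fun (p q : ℝ) (φ : Finset X → ℝ) :
    ∑ w : Finset X, wt p w * ∑ v : Finset X, wt q v * φ (w ∪ v) =
      ∑ y : Finset X, wt (p + q - p * q) y * φ y := by
  simp_rw [← sum_wt_wt_union, Finset.sum_mul, Finset.mul_sum]
  rw [Finset.sum_comm (s := Finset.univ) (t := Finset.univ)
    (f := fun y w => ∑ v : Finset X, wt p w * wt q v * (if w ∪ v = y then 1 else 0) * φ y)]
  refine Finset.sum_congr rfl fun w _ => ?_
  rw [Finset.sum_comm]
  refine Finset.sum_congr rfl fun v _ => ?_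
  simp [mul_assoc]

lemma wt_zero (y : Finset X) : wt 0 y = if y = ∅ then 1 else 0 := by
  unfold wt
  split_ifs with h
  · subst h; simp
  · obtain ⟨x, hx⟩ := Finset.nonempty_iff_ne_empty.mpr h
    exact Finset.prod_eq_zero (Finset.mem_univ x) (by simp [hx])

/-- The colour class of a uniformly random colouring is a Bernoulli set. -/
lemma sum_coloring {Q : Type} [Fintype Q] [DecidableEq Q] (α : Q) (φ : Finset X → ℝ) :
    ∑ c : X → Q, φ (Finset.univ.filter fun x => c x = α) =
      (Fintype.card Q : ℝ) ^ Fintype.card X *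
        ∑ y : Finset X, wt (1 / (Fintype.card Q : ℝ)) y * φ y := by
  have hQ : (0 : ℝ) < Fintype.card Q := by
    have : 0 < Fintype.card Q := Fintype.card_pos_iff.mpr ⟨α⟩
    exact_mod_cast this
  have key : ∀ y : Finset X, (∑ c : X → Q,
      if (Finset.univ.filter fun x => c x = α) = y then (1 : ℝ) else 0) =
      (Fintype.card Q : ℝ) ^ Fintype.card X * wt (1 / (Fintype.card Q : ℝ)) y := by
    intro y
    have h : ∀ c : X → Q, (if (Finset.univ.filter fun x => c x = α) = y then (1 : ℝ) else 0) =
        ∏ x : X, (if (c x = α ↔ x ∈ y) then (1 : ℝ) else 0) := by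
      intro c
      rw [Finset.prod_boole]
      congr 1
      simp [Finset.ext_iff]
    simp_rw [h]
    rw [← Fintype.prod_sum (fun (x : X) (β : Q) => if (β = α ↔ x ∈ y) then (1 : ℝ) else 0)]
    rw [wt, ← Finset.card_univ (α := X), ← Finset.prod_const, ← Finset.prod_mul_distrib]
    refine Finset.prod_congr rfl fun x _ => ?_
    by_cases hx : x ∈ y
    · simp [hx, hQ.ne']
    · simp only [hx, iff_false, if_false]
      have : ∀ β : Q, (if ¬ β = α then (1 : ℝ) else 0) = 1 - if β = α then 1 else 0 := by
        intro β; split_ifs <;> simp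
      simp_rw [this]
      rw [Finset.sum_sub_distrib]
      simp
      field_simp
  rw [Finset.mul_sum]
  simp_rw [← mul_assoc, ← key, Finset.sum_mul]
  rw [Finset.sum_comm]
  refine Finset.sum_congr rfl fun c _ => ?_
  simp

end Crest.Agent.Lib.Sunflower
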